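import Vale.Agent.P300.H142.Table

/-!
P300: THE NODE TABLE (frozen, decision D2 of helper40).  The fifteen node charts of `M̄_{0,5}`:
`kap ν : (u, v) ↦ (x, λ)` for the labelling `node ν = (a, b, c, d, e)` of the points
`(0, u v, v, 1, ∞)`; `D_ab = {u = 0}`, `D_de = {v = 0}`.  `kapX` is the extra chart number 15
(only for NODE and CURVE, not for the atlas): another coordinate of the node
`D_{0λ} ∩ D_{x1}` whose positive quadrant lies over the chamber `0 < λ < x < 1`.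
-/

namespace Vale.Agent.P300.H142

/-- `M_{0,5}` in the coordinates `(x, λ)` -/
def U : Set (ℂ × ℂ) := {z | z.1 ≠ 0 ∧ z.1 ≠ 1 ∧ z.2 ≠ 0 ∧ z.2 ≠ 1 ∧ z.1 ≠ z.2}

/-- `{u v (1-u) (1-v) (1-uv) ≠ 0}`, the model of `U` in the coordinates of a node -/
def W : Set (ℂ × ℂ) :=
  {w | w.1 ≠ 0 ∧ w.2 ≠ 0 ∧ w.1 ≠ 1 ∧ w.2 ≠ 1 ∧ w.1 * w.2 ≠ 1}

/-- the region of a node: star-shaped about the node `(0,0)` -/
def R : Set (ℂ × ℂ) := {w | ∀ t : ℝ, 1 ≤ t → w.1 ≠ t ∧ w.2 ≠ t ∧ w.1 * w.2 ≠ t}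

/-- its logarithmic cover -/
def Rt : Set (ℂ × ℂ) := {z | (Complex.exp z.1, Complex.exp z.2) ∈ R}

/-- the extra chart of the node `D_{0λ} ∩ D_{x1}` over the chamber `0 < λ < x < 1` -/
noncomputable def kapX (w : ℂ × ℂ) : ℂ × ℂ :=
  ((1 - w.2) / (1 - w.1 * w.2), w.1 * (1 - w.2) / (1 - w.1 * w.2))

/-- the fifteen node charts, `(u,v) ↦ (x,λ)` -/
noncomputable def kap : Fin 15 → ℂ × ℂ → ℂ × ℂ
  | 0, w => ((1 - w.1 * w.2) / (1 - w.2), w.1)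
  | 1, w => (1 / w.2, w.1)
  | 2, w => (1 / w.2, (1 - w.1) / (1 - w.1 * w.2))
  | 3, w => ((1 - w.1 * w.2) / (1 - w.2), 1 - w.1 * w.2)
  | 4, w => (1 / (1 - w.1 * w.2), (1 - w.2) / (1 - w.1 * w.2))
  | 5, w => (w.2, w.1 * w.2)
  | 6, w => (w.2, w.2 * (1 - w.1) / (1 - w.1 * w.2))
  | 7, w => ((1 - w.2) / (1 - w.1 * w.2), 1 - w.2)
  | 8, w => (w.1 * (1 - w.2) / (1 - w.1 * w.2), (1 - w.2) / (1 - w.1 * w.2))
  | 9, w => (w.1 * w.2, w.2)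
  | 10, w => ((1 - w.1 * w.2) / (w.2 * (1 - w.1)), 1 / w.2)
  | 11, w => (1 / (w.1 * w.2), 1 / w.2)
  | 12, w => (1 / w.2, 1 / (w.1 * w.2))
  | 13, w => ((1 - w.1 * w.2) / (1 - w.1), (1 - w.1 * w.2) / (w.2 * (1 - w.1)))
  | 14, w => (w.1, 1 / w.2)

/-- the labelling of the chart `ν` -/
def node : Fin 15 → Node :=
  ![.lzixu, .zluxi, .uLzix, .luxiz, .xulzi, .zlxui, .xlziu, .lxuiz, .xziul, .zxlui,
    .lxizu, .ixluz, .ilxuz, .xuzil, .zxuli]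

end Vale.Agent.P300.H142
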