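import Mathlib.GroupTheory.FreeGroup.Basic
import Mathlib.GroupTheory.SemidirectProduct
import Mathlib.Tactic

/-!
P300, block T4a: the fifteen crossing points of `M̄_{0,5}` and their pairs of local loops, as words
in an arbitrary group with the six relations `Rel` (note 15120 of helper198, note of helper142).
Charts: five labelled points `(0, r s, s, 1, ∞)`; `D_ab = {r = 0}`, `D_de = {s = 0}`.
-/

set_option autoImplicit false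

namespace Vale.Agent.P300.H142

/-- The relations of `π₁(M_{0,5})`. -/
structure Rel {E : Type*} [Group E] (c1 c2 c3 T0 T1 : E) : Prop where
  a3 : T0 * c3 = c3 * T0
  a12 : T0 * (c1 * c2) = (c1 * c2) * T0
  a1 : T0 * c1 = (c2⁻¹ * c1 * c2) * T0
  b1 : T1 * c1 = c1 * T1
  b23 : T1 * (c2 * c3) = (c2 * c3) * T1
  b2 : T1 * c2 = (c3⁻¹ * c2 * c3) * T1

/-- The fifteen crossing points, named by their labelling `(a, b, c, d, e)` of the points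
`(0, r s, s, 1, ∞)` (`l = λ`, `i = ∞`, `z = 0`, `u = 1`). -/
inductive Node
  | lzixu | zluxi | uLzix | luxiz | xulzi | zlxui | xlziu | lxuiz | xziul | zxlui
  | lxizu | ixluz | ilxuz | xuzil | zxuli
  deriving DecidableEq

instance : Fintype Node where
  elems := {.lzixu, .zluxi, .uLzix, .luxiz, .xulzi, .zlxui, .xlziu, .lxuiz, .xziul, .zxlui,
    .lxizu, .ixluz, .ilxuz, .xuzil, .zxuli}
  complete := by intro x; cases x <;> decide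

variable {E : Type*} [Group E] (c1 c2 c3 T0 T1 : E)

/-- base chamber of the chart (`r, s > 0` small), numbering of helper198 -/
def Node.chamber : Node → ℕ
  | .lzixu => 1 | .zluxi => 1 | .uLzix => 1 | .luxiz => 1 | .xulzi => 1
  | .zlxui => 2 | .xlziu => 2 | .lxuiz => 2 | .xziul => 3 | .zxlui => 3
  | .lxizu => 9 | .ixluz => 9 | .ilxuz => 10 | .xuzil => 10 | .zxuli => 11

/-- loop `r ↦ e^{iθ} r`, based at the base chamber -/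
def Node.lr : Node → E
  | .lzixu => T0
  | .zluxi => T0
  | .uLzix => T1
  | .luxiz => T1
  | .xulzi => c3
  | .zlxui => T0
  | .xlziu => c2
  | .lxuiz => c2
  | .xziul => c1
  | .zxlui => c1
  | .lxizu => c3⁻¹ * c2 * c3
  | .ixluz => (c1 * c2 * c3)⁻¹
  | .ilxuz => c1 * c2⁻¹ * c1⁻¹ * T0⁻¹ * T1⁻¹
  | .xuzil => c3
  | .zxuli => c1

/-- loop `s ↦ e^{iθ} s`, based at the base chamber -/
def Node.ls : Node → E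
  | .lzixu => c3
  | .zluxi => (c1 * c2 * c3)⁻¹
  | .uLzix => (c1 * c2 * c3)⁻¹
  | .luxiz => c2 * c3 * T1
  | .xulzi => c2 * c3 * T1
  | .zlxui => c1 * c2 * T0
  | .xlziu => c1 * c2 * T0
  | .lxuiz => c2 * c3 * T1
  | .xziul => T1
  | .zxlui => c1 * c2 * T0
  | .lxizu => (c1 * c2 * c3)⁻¹ * T0⁻¹ * T1⁻¹
  | .ixluz => (c1 * c2 * c3)⁻¹ * T0⁻¹ * T1⁻¹
  | .ilxuz => (c1 * c2 * c3)⁻¹ * T0⁻¹ * T1⁻¹
  | .xuzil => c1 * c2⁻¹ * c1⁻¹ * T0⁻¹ * T1⁻¹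
  | .zxuli => c1 * c2⁻¹ * c1⁻¹ * T0⁻¹ * T1⁻¹

/-- conjugator to the standard form -/
def Node.cj : Node → E
  | .lxizu => T1 | .ixluz => T1 | .ilxuz => T1 | .xuzil => T1 | .zxuli => T1
  | _ => 1

/-- standard form of the `r` loop -/
def Node.sr : Node → E
  | .lzixu => T0
  | .zluxi => T0
  | .uLzix => T1
  | .luxiz => T1
  | .xulzi => c3
  | .zlxui => T0
  | .xlziu => c2
  | .lxuiz => c2
  | .xziul => c1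
  | .zxlui => c1
  | .lxizu => c2
  | .ixluz => (c1 * c2 * c3)⁻¹
  | .ilxuz => (T1⁻¹ * T0⁻¹) * c2⁻¹
  | .xuzil => c2 * c3 * c2⁻¹
  | .zxuli => c1

/-- standard form of the `s` loop -/
def Node.ss : Node → E
  | .lzixu => c3
  | .zluxi => (c1 * c2 * c3)⁻¹
  | .uLzix => (c1 * c2 * c3)⁻¹
  | .luxiz => c2 * c3 * T1
  | .xulzi => c2 * c3 * T1
  | .zlxui => c1 * c2 * T0
  | .xlziu => c1 * c2 * T0
  | .lxuiz => c2 * c3 * T1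
  | .xziul => T1
  | .zxlui => c1 * c2 * T0
  | .lxizu => (T1⁻¹ * T0⁻¹) * (c1 * c2 * c3)⁻¹
  | .ixluz => (T1⁻¹ * T0⁻¹) * (c1 * c2 * c3)⁻¹
  | .ilxuz => (T1⁻¹ * T0⁻¹) * (c1 * c2 * c3)⁻¹
  | .xuzil => (T1⁻¹ * T0⁻¹) * c2⁻¹
  | .zxuli => (T1⁻¹ * T0⁻¹) * c2⁻¹

section
variable {c1 c2 c3 T0 T1}

theorem Rel.cj_a1 (h : Rel c1 c2 c3 T0 T1) : T0 * c1 * T0⁻¹ = c2⁻¹ * c1 * c2 := by
  rw [h.a1]; group

theorem Rel.cj_a2 (h : Rel c1 c2 c3 T0 T1) : T0 * c2 * T0⁻¹ = c2⁻¹ * c1⁻¹ * c2 * c1 * c2 := by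
  have h1 : T0 * c2 * T0⁻¹ = (T0 * c1 * T0⁻¹)⁻¹ * (T0 * (c1 * c2)) * T0⁻¹ := by group
  rw [h1, h.cj_a1, h.a12]; group

theorem Rel.cj_a3 (h : Rel c1 c2 c3 T0 T1) : T0 * c3 * T0⁻¹ = c3 := by
  rw [h.a3]; group

theorem Rel.cj_b1 (h : Rel c1 c2 c3 T0 T1) : T1 * c1 * T1⁻¹ = c1 := by
  rw [h.b1]; group

theorem Rel.cj_b2 (h : Rel c1 c2 c3 T0 T1) : T1 * c2 * T1⁻¹ = c3⁻¹ * c2 * c3 := by
  rw [h.b2]; group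

theorem Rel.cj_b3 (h : Rel c1 c2 c3 T0 T1) : T1 * c3 * T1⁻¹ = c3⁻¹ * c2⁻¹ * c3 * c2 * c3 := by
  have h1 : T1 * c3 * T1⁻¹ = (T1 * c2 * T1⁻¹)⁻¹ * (T1 * (c2 * c3)) * T1⁻¹ := by group
  rw [h1, h.cj_b2, h.b23]; group

/-- `T0` and `T1` fix `c1 c2 c3`. -/
theorem Rel.a123 (h : Rel c1 c2 c3 T0 T1) : T0 * (c1 * c2 * c3) = (c1 * c2 * c3) * T0 := by
  rw [← mul_assoc, h.a12, mul_assoc, h.a3]; group

theorem Rel.b123 (h : Rel c1 c2 c3 T0 T1) : T1 * (c1 * c2 * c3) = (c1 * c2 * c3) * T1 := by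
  rw [mul_assoc c1, ← mul_assoc, h.b1, mul_assoc, h.b23]; group

/-- the `s` loops of type `D_{1∞}` -/
theorem Rel.dT0_c1 (h : Rel c1 c2 c3 T0 T1) : c1 * (c1 * c2 * T0) = c1 * c2 * T0 * c1 := by
  rw [mul_assoc (c1 * c2) T0 c1, h.a1]; group

theorem Rel.dT0_c2 (h : Rel c1 c2 c3 T0 T1) : c2 * (c1 * c2 * T0) = c1 * c2 * T0 * c2 := by
  have h1 : T0 * c2 = (c2⁻¹ * c1⁻¹ * c2 * c1 * c2) * T0 := by
    rw [← h.cj_a2]; group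
  rw [mul_assoc (c1 * c2) T0 c2, h1]; group

theorem Rel.dT0_T0 (h : Rel c1 c2 c3 T0 T1) : T0 * (c1 * c2 * T0) = c1 * c2 * T0 * T0 := by
  rw [← mul_assoc, h.a12]

theorem Rel.eT1_c2 (h : Rel c1 c2 c3 T0 T1) : c2 * (c2 * c3 * T1) = c2 * c3 * T1 * c2 := by
  rw [mul_assoc (c2 * c3) T1 c2, h.b2]; group

theorem Rel.eT1_c3 (h : Rel c1 c2 c3 T0 T1) : c3 * (c2 * c3 * T1) = c2 * c3 * T1 * c3 := by
  have h1 : T1 * c3 = (c3⁻¹ * c2⁻¹ * c3 * c2 * c3) * T1 := by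
    rw [← h.cj_b3]; group
  rw [mul_assoc (c2 * c3) T1 c3, h1]; group

theorem Rel.eT1_T1 (h : Rel c1 c2 c3 T0 T1) : T1 * (c2 * c3 * T1) = c2 * c3 * T1 * T1 := by
  rw [← mul_assoc, h.b23]

/-- inverse forms of the relations -/
theorem Rel.inv (h : Rel c1 c2 c3 T0 T1) :
    T0⁻¹ * c1 * T0 = c1 * c2 * c1 * c2⁻¹ * c1⁻¹ ∧ T0⁻¹ * c2 * T0 = c1 * c2 * c1⁻¹ ∧
    T0⁻¹ * c3 * T0 = c3 ∧ T1⁻¹ * c1 * T1 = c1 ∧ T1⁻¹ * c2 * T1 = c2 * c3 * c2 * c3⁻¹ * c2⁻¹ ∧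
    T1⁻¹ * c3 * T1 = c2 * c3 * c2⁻¹ := by
  have e : ∀ t u v : E, t * v * t⁻¹ = u → t⁻¹ * u * t = v := by
    intro t u v h; rw [← h]; group
  have e' : ∀ t u v : E, t * v = u * t → t⁻¹ * u * t = v := by
    intro t u v h; rw [mul_assoc, ← h]; group
  refine ⟨e _ _ _ ?_, e _ _ _ ?_, e _ _ _ h.cj_a3, e _ _ _ h.cj_b1, e _ _ _ ?_, e _ _ _ ?_⟩
  · have : T0 * (c1 * c2 * c1 * c2⁻¹ * c1⁻¹) * T0⁻¹
        = (T0 * (c1 * c2) * T0⁻¹) * (T0 * c1 * T0⁻¹) * (T0 * (c1 * c2) * T0⁻¹)⁻¹ := by group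
    rw [this, h.cj_a1, h.a12]; group
  · have : T0 * (c1 * c2 * c1⁻¹) * T0⁻¹
        = (T0 * (c1 * c2) * T0⁻¹) * (T0 * c1 * T0⁻¹)⁻¹ := by group
    rw [this, h.cj_a1, h.a12]; group
  · have : T1 * (c2 * c3 * c2 * c3⁻¹ * c2⁻¹) * T1⁻¹
        = (T1 * (c2 * c3) * T1⁻¹) * (T1 * c2 * T1⁻¹) * (T1 * (c2 * c3) * T1⁻¹)⁻¹ := by group
    rw [this, h.cj_b2, h.b23]; group
  · have : T1 * (c2 * c3 * c2⁻¹) * T1⁻¹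
        = (T1 * (c2 * c3) * T1⁻¹) * (T1 * c2 * T1⁻¹)⁻¹ := by group
    rw [this, h.cj_b2, h.b23]; group

/-- `T₁⁻¹ T₀⁻¹` commutes with `(c₁ c₂ c₃)⁻¹` -/
theorem Rel.too_c4 (h : Rel c1 c2 c3 T0 T1) :
    (T1⁻¹ * T0⁻¹) * (c1 * c2 * c3)⁻¹ = (c1 * c2 * c3)⁻¹ * (T1⁻¹ * T0⁻¹) := by
  have h2 : (c1 * c2 * c3) * (T0 * T1) = (T0 * T1) * (c1 * c2 * c3) := by
    rw [← mul_assoc, ← h.a123, mul_assoc, ← h.b123]; group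
  have h3 := congrArg (fun w => w⁻¹) h2
  simpa [mul_inv_rev, mul_assoc] using h3

/-- `t'` over `λ = ∞` commutes with the loop round `x = λ` -/
theorem Rel.too_c4_c2 (h : Rel c1 c2 c3 T0 T1) :
    c2 * ((T1⁻¹ * T0⁻¹) * (c1 * c2 * c3)⁻¹) = (T1⁻¹ * T0⁻¹) * (c1 * c2 * c3)⁻¹ * c2 := by
  obtain ⟨i1, i2, i3, j1, j2, j3⟩ := h.inv
  have h1 : (T1⁻¹ * T0⁻¹ * (c1 * c2 * c3)⁻¹) * c2 =
      (T1⁻¹ * (T0⁻¹ * ((c1 * c2 * c3)⁻¹ * c2 * (c1 * c2 * c3)) * T0) * T1) *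
        (T1⁻¹ * T0⁻¹ * (c1 * c2 * c3)⁻¹) := by group
  have h2 : T0⁻¹ * ((c1 * c2 * c3)⁻¹ * c2 * (c1 * c2 * c3)) * T0 = c3⁻¹ * c2 * c3 := by
    have : T0⁻¹ * ((c1 * c2 * c3)⁻¹ * c2 * (c1 * c2 * c3)) * T0 =
        (T0⁻¹ * c3 * T0)⁻¹ * (T0⁻¹ * c2 * T0)⁻¹ * (T0⁻¹ * c1 * T0)⁻¹ * (T0⁻¹ * c2 * T0) *
          (T0⁻¹ * c1 * T0) * (T0⁻¹ * c2 * T0) * (T0⁻¹ * c3 * T0) := by group
    rw [this, i1, i2, i3]; group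
  have h3 : T1⁻¹ * (c3⁻¹ * c2 * c3) * T1 = c2 := by
    have : T1⁻¹ * (c3⁻¹ * c2 * c3) * T1 =
        (T1⁻¹ * c3 * T1)⁻¹ * (T1⁻¹ * c2 * T1) * (T1⁻¹ * c3 * T1) := by group
    rw [this, j2, j3]; group
  rw [h1, h2, h3]

/-- `t''` over `λ = ∞` commutes with the loop round `x = 1` -/
theorem Rel.too_x1 (h : Rel c1 c2 c3 T0 T1) :
    c2 * c3 * c2⁻¹ * ((T1⁻¹ * T0⁻¹) * c2⁻¹) = (T1⁻¹ * T0⁻¹) * c2⁻¹ * (c2 * c3 * c2⁻¹) := by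
  obtain ⟨i1, i2, i3, j1, j2, j3⟩ := h.inv
  have h1 : (T1⁻¹ * T0⁻¹) * c2⁻¹ * (c2 * c3 * c2⁻¹) =
      (T1⁻¹ * (T0⁻¹ * c3 * T0) * T1) * ((T1⁻¹ * T0⁻¹) * c2⁻¹) := by group
  rw [h1, i3, j3]

/-- `t''` over `λ = ∞` commutes with the loop round `x = 0` -/
theorem Rel.too_x0 (h : Rel c1 c2 c3 T0 T1) :
    c1 * ((T1⁻¹ * T0⁻¹) * c2⁻¹) = (T1⁻¹ * T0⁻¹) * c2⁻¹ * c1 := by
  obtain ⟨i1, i2, i3, j1, j2, j3⟩ := h.inv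
  have h1 : (T1⁻¹ * T0⁻¹) * c2⁻¹ * c1 =
      (T1⁻¹ * (T0⁻¹ * (c2⁻¹ * c1 * c2) * T0) * T1) * ((T1⁻¹ * T0⁻¹) * c2⁻¹) := by group
  have h2 : T0⁻¹ * (c2⁻¹ * c1 * c2) * T0 = c1 := by
    have : T0⁻¹ * (c2⁻¹ * c1 * c2) * T0 =
        (T0⁻¹ * c2 * T0)⁻¹ * (T0⁻¹ * c1 * T0) * (T0⁻¹ * c2 * T0) := by group
    rw [this, i1, i2]; group
  rw [h1, h2, j1]

omit c1 c2 c3 T0 T1 in
theorem aux1 {u w : E} (h : u * w⁻¹ = w⁻¹ * u) : w⁻¹ * (u * w⁻¹) = u * w⁻¹ * w⁻¹ := by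
  rw [← mul_assoc, ← h]

omit c1 c2 c3 T0 T1 in
theorem aux2 {u w c : E} (h : u * w⁻¹ = w⁻¹ * u) (h2 : c * (u * w⁻¹) = u * w⁻¹ * c) :
    u * c⁻¹ * (u * w⁻¹) = u * w⁻¹ * (u * c⁻¹) := by
  have h3 : c⁻¹ * (u * w⁻¹) = u * w⁻¹ * c⁻¹ := by
    have : c⁻¹ * (u * w⁻¹) = c⁻¹ * (u * w⁻¹ * c) * c⁻¹ := by group
    rw [this, ← h2]; group
  calc u * c⁻¹ * (u * w⁻¹) = u * (c⁻¹ * (u * w⁻¹)) := by group
    _ = u * (u * w⁻¹) * c⁻¹ := by rw [h3]; group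
    _ = u * (w⁻¹ * u) * c⁻¹ := by rw [h]
    _ = u * w⁻¹ * (u * c⁻¹) := by group

/-- the standard pairs commute -/
theorem Rel.std_comm (h : Rel c1 c2 c3 T0 T1) (q : Node) :
    q.sr c1 c2 c3 T0 T1 * q.ss c1 c2 c3 T0 T1 = q.ss c1 c2 c3 T0 T1 * q.sr c1 c2 c3 T0 T1 := by
  have cinv : ∀ u v : E, u * v = v * u → u * v⁻¹ = v⁻¹ * u := by
    intro u v h
    have : u * v⁻¹ = v⁻¹ * (v * u) * v⁻¹ := by group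
    rw [this, ← h]; group
  cases q
  · exact h.a3
  · exact cinv _ _ h.a123
  · exact cinv _ _ h.b123
  · exact h.eT1_T1
  · exact h.eT1_c3
  · exact h.dT0_T0
  · exact h.dT0_c2
  · exact h.eT1_c2
  · exact h.b1.symm
  · exact h.dT0_c1
  · exact h.too_c4_c2
  · exact aux1 h.too_c4
  · exact aux2 h.too_c4 h.too_c4_c2
  · exact h.too_x1
  · exact h.too_x0

/-- the loops are the conjugates by `cj` of the standard loops -/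
theorem Rel.lr_eq (h : Rel c1 c2 c3 T0 T1) (q : Node) :
    q.lr c1 c2 c3 T0 T1 = q.cj (E := E) T1 * q.sr c1 c2 c3 T0 T1 * (q.cj (E := E) T1)⁻¹ := by
  have i0 : T0⁻¹ * c2⁻¹ = c1 * c2⁻¹ * c1⁻¹ * T0⁻¹ := by
    have : T0⁻¹ * c2⁻¹ = (T0⁻¹ * c2 * T0)⁻¹ * T0⁻¹ := by group
    rw [this, h.inv.2.1]; group
  cases q <;> simp only [Node.lr, Node.cj, Node.sr, one_mul, inv_one, mul_one]
  · exact h.cj_b2.symm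
  · rw [show T1 * (c1 * c2 * c3)⁻¹ * T1⁻¹ = (T1 * (c1 * c2 * c3) * T1⁻¹)⁻¹ by group, h.b123]; group
  · rw [mul_assoc T1⁻¹, i0]; group
  · rw [show T1 * (c2 * c3 * c2⁻¹) * T1⁻¹ = (T1 * c2 * T1⁻¹) * (T1 * c3 * T1⁻¹) *
      (T1 * c2 * T1⁻¹)⁻¹ by group, h.cj_b2, h.cj_b3]; group
  · exact h.cj_b1.symm

theorem Rel.ls_eq (h : Rel c1 c2 c3 T0 T1) (q : Node) :
    q.ls c1 c2 c3 T0 T1 = q.cj (E := E) T1 * q.ss c1 c2 c3 T0 T1 * (q.cj (E := E) T1)⁻¹ := by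
  have i0 : T0⁻¹ * c2⁻¹ = c1 * c2⁻¹ * c1⁻¹ * T0⁻¹ := by
    have : T0⁻¹ * c2⁻¹ = (T0⁻¹ * c2 * T0)⁻¹ * T0⁻¹ := by group
    rw [this, h.inv.2.1]; group
  have i1 : (c1 * c2 * c3)⁻¹ * T0⁻¹ * T1⁻¹ =
      T1 * ((T1⁻¹ * T0⁻¹) * (c1 * c2 * c3)⁻¹) * T1⁻¹ := by
    have h1 : T0⁻¹ * (c1 * c2 * c3)⁻¹ = (c1 * c2 * c3)⁻¹ * T0⁻¹ := by
      rw [← mul_inv_rev, ← mul_inv_rev, h.a123]
    rw [mul_assoc T1⁻¹, h1]; group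
  have i2 : c1 * c2⁻¹ * c1⁻¹ * T0⁻¹ * T1⁻¹ = T1 * ((T1⁻¹ * T0⁻¹) * c2⁻¹) * T1⁻¹ := by
    rw [mul_assoc T1⁻¹, i0]; group
  cases q <;> simp only [Node.ls, Node.cj, Node.ss, one_mul, inv_one, mul_one]
  · exact i1
  · exact i1
  · exact i1
  · exact i2
  · exact i2

theorem Rel.loops_comm (h : Rel c1 c2 c3 T0 T1) (q : Node) :
    q.lr c1 c2 c3 T0 T1 * q.ls c1 c2 c3 T0 T1 = q.ls c1 c2 c3 T0 T1 * q.lr c1 c2 c3 T0 T1 := by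
  have hh := h.std_comm q
  rw [h.lr_eq, h.ls_eq]
  generalize q.cj (E := E) T1 = g at *
  generalize q.sr c1 c2 c3 T0 T1 = a at *
  generalize q.ss c1 c2 c3 T0 T1 = b at *
  calc g * a * g⁻¹ * (g * b * g⁻¹) = g * (a * b) * g⁻¹ := by group
    _ = g * (b * a) * g⁻¹ := by rw [hh]
    _ = _ := by group

/-- the relations in the form of note 13964 (`T₀`, `T₁` there are the inverses of ours) -/
theorem Rel.of_conj (h1 : T0 * c1 * T0⁻¹ = (c1 * c2) * c1 * (c1 * c2)⁻¹)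
    (h2 : T0 * c2 * T0⁻¹ = (c1 * c2) * c2 * (c1 * c2)⁻¹) (h3 : T0 * c3 * T0⁻¹ = c3)
    (k1 : T1 * c1 * T1⁻¹ = c1) (k2 : T1 * c2 * T1⁻¹ = (c2 * c3) * c2 * (c2 * c3)⁻¹)
    (k3 : T1 * c3 * T1⁻¹ = (c2 * c3) * c3 * (c2 * c3)⁻¹) : Rel c1 c2 c3 T0⁻¹ T1⁻¹ := by
  have sw : ∀ t u v : E, t * u * t⁻¹ = v → t⁻¹ * v = u * t⁻¹ := by
    intro t u v h; rw [← h]; group
  have hd : T0 * (c1 * c2) * T0⁻¹ = c1 * c2 := by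
    rw [show T0 * (c1 * c2) * T0⁻¹ = (T0 * c1 * T0⁻¹) * (T0 * c2 * T0⁻¹) by group, h1, h2]; group
  have he : T1 * (c2 * c3) * T1⁻¹ = c2 * c3 := by
    rw [show T1 * (c2 * c3) * T1⁻¹ = (T1 * c2 * T1⁻¹) * (T1 * c3 * T1⁻¹) by group, k2, k3]; group
  refine ⟨sw _ _ _ h3, sw _ _ _ hd, ?_, sw _ _ _ k1, sw _ _ _ he, ?_⟩
  · refine sw _ _ _ ?_
    rw [show T0 * (c2⁻¹ * c1 * c2) * T0⁻¹ = (T0 * c2 * T0⁻¹)⁻¹ * (T0 * c1 * T0⁻¹) *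
      (T0 * c2 * T0⁻¹) by group, h1, h2]; group
  · refine sw _ _ _ ?_
    rw [show T1 * (c3⁻¹ * c2 * c3) * T1⁻¹ = (T1 * c3 * T1⁻¹)⁻¹ * (T1 * c2 * T1⁻¹) *
      (T1 * c3 * T1⁻¹) by group, k2, k3]; group

end

end Vale.Agent.P300.H142
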