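import Vale.Agent.P300.H49.Space
import Mathlib.GroupTheory.Perm.Closure

/-!
P300, block YSEP: a point of `M̄_{0,5}` (helper49's closure of the cross ratios) is determined by
five cross ratios, one for each omitted label.
-/

set_option autoImplicit false

open Filter Topology Set

namespace Vale.Agent.P300.M05

theorem quo_eq_iff {a b a' b' : ℂ} (h1 : a ≠ 0 ∨ b ≠ 0) (h2 : a' ≠ 0 ∨ b' ≠ 0) :
    quo a b = quo a' b' ↔ a * b' = a' * b := by
  refine ⟨fun h => ?_, fun h => quo_eq_of_mul_eq h h1 h2⟩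
  by_cases hb : b = 0
  · subst hb
    rw [quo_zero] at h
    have : b' = 0 := by
      by_contra hb'
      exact (quo_ne_infty.2 hb') h.symm
    subst this
    simp
  · by_cases hb' : b' = 0
    · subst hb'
      rw [quo_zero] at h
      exact absurd h (quo_ne_infty.2 hb)
    · have := quo_inj hb hb' h
      rwa [div_eq_div_iff hb hb'] at this

/-- Pluecker relation -/
theorem crM_sub_crN (a : Fin 4 → Fin 5) (w : Fin 5 → ℂ × ℂ) :
    crM a w - crN a w = br (w (a 0)) (w (a 3)) * br (w (a 1)) (w (a 2)) := by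
  unfold crM crN br
  ring

/-- two continuous functions which agree on `U0` agree -/
theorem eq_of_U0 {f g : ℂ × ℂ → ℂ} (hf : Continuous f) (hg : Continuous g)
    (h : ∀ p ∈ U0, f p = g p) (p : ℂ × ℂ) : f p = g p :=
  congrFun (Continuous.ext_on dense_U0 hf hg h) p

theorem crM_vv_ne {a : Fin 4 → Fin 5} (ha : Function.Injective a) {p : ℂ × ℂ} (hp : p ∈ U0) :
    crM a (vv p) ≠ 0 := by
  have h02 : a 0 ≠ a 2 := fun h => by simpa using ha h
  have h13 : a 1 ≠ a 3 := fun h => by simpa using ha h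
  exact mul_ne_zero (good_vv hp _ _ h02) (good_vv hp _ _ h13)

theorem inj_swap {a : Fin 4 → Fin 5} (ha : Function.Injective a) (σ : Equiv.Perm (Fin 4)) :
    Function.Injective (a ∘ σ) := ha.comp σ.injective

/-- exchange of the labels `1, 2` -/
theorem rel12 {a : Fin 4 → Fin 5} (ha : Function.Injective a) (p : ℂ × ℂ) :
    rN (a ∘ Equiv.swap 1 2) p * rN a p = rM a p * rM (a ∘ Equiv.swap 1 2) p := by
  refine eq_of_U0 (f := fun p => rN (a ∘ Equiv.swap 1 2) p * rN a p)
    (g := fun p => rM a p * rM (a ∘ Equiv.swap 1 2) p)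
    ((continuous_rN _).mul (continuous_rN _)) ((continuous_rM _).mul
    (continuous_rM _)) (fun p hp => ?_) p
  have h1 := cross a ha p
  have h2 := cross _ (inj_swap ha (Equiv.swap 1 2)) p
  have e1 : crN (a ∘ Equiv.swap 1 2) (vv p) = crM a (vv p) := by
    simp [crN, crM, Function.comp, Equiv.swap_apply_def]
  have e2 : crM (a ∘ Equiv.swap 1 2) (vv p) = crN a (vv p) := by
    simp [crN, crM, Function.comp, Equiv.swap_apply_def]
  rw [e1, e2] at h2
  have hM := crM_vv_ne ha hp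
  apply mul_left_cancel₀ hM
  linear_combination (-rN (a ∘ Equiv.swap 1 2) p) * h1 - rM a p * h2

/-- exchange of the labels `0, 1` -/
theorem rel01 {a : Fin 4 → Fin 5} (ha : Function.Injective a) (p : ℂ × ℂ) :
    rN (a ∘ Equiv.swap 0 1) p * (rM a p - rN a p) = (-rN a p) * rM (a ∘ Equiv.swap 0 1) p := by
  refine eq_of_U0 (f := fun p => rN (a ∘ Equiv.swap 0 1) p * (rM a p - rN a p))
    (g := fun p => (-rN a p) * rM (a ∘ Equiv.swap 0 1) p)
    ((continuous_rN _).mul ((continuous_rM _).sub (continuous_rN _)))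
    ((continuous_rN _).neg.mul (continuous_rM _)) (fun p hp => ?_) p
  have h1 := cross a ha p
  have h2 := cross _ (inj_swap ha (Equiv.swap 0 1)) p
  have e1 : crN (a ∘ Equiv.swap 0 1) (vv p) = - crN a (vv p) := by
    simp [crN, Function.comp, Equiv.swap_apply_def, br]; ring
  have e2 : crM (a ∘ Equiv.swap 0 1) (vv p) = crM a (vv p) - crN a (vv p) := by
    simp [crN, crM, Function.comp, Equiv.swap_apply_def, br]; ring
  rw [e1, e2] at h2
  have hM := crM_vv_ne ha hp
  apply mul_left_cancel₀ hM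
  linear_combination (rN (a ∘ Equiv.swap 0 1) p - rM (a ∘ Equiv.swap 0 1) p) * h1 -
    rM a p * h2

/-- exchange of the labels `2, 3` -/
theorem rel23 {a : Fin 4 → Fin 5} (ha : Function.Injective a) (p : ℂ × ℂ) :
    rN (a ∘ Equiv.swap 2 3) p * (rM a p - rN a p) = (-rN a p) * rM (a ∘ Equiv.swap 2 3) p := by
  refine eq_of_U0 (f := fun p => rN (a ∘ Equiv.swap 2 3) p * (rM a p - rN a p))
    (g := fun p => (-rN a p) * rM (a ∘ Equiv.swap 2 3) p)
    ((continuous_rN _).mul ((continuous_rM _).sub (continuous_rN _)))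
    ((continuous_rN _).neg.mul (continuous_rM _)) (fun p hp => ?_) p
  have h1 := cross a ha p
  have h2 := cross _ (inj_swap ha (Equiv.swap 2 3)) p
  have e1 : crN (a ∘ Equiv.swap 2 3) (vv p) = - crN a (vv p) := by
    simp [crN, Function.comp, Equiv.swap_apply_def, br]; ring
  have e2 : crM (a ∘ Equiv.swap 2 3) (vv p) = crM a (vv p) - crN a (vv p) := by
    simp [crN, crM, Function.comp, Equiv.swap_apply_def, br]; ring
  rw [e1, e2] at h2
  have hM := crM_vv_ne ha hp
  apply mul_left_cancel₀ hM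
  linear_combination (rN (a ∘ Equiv.swap 2 3) p - rM (a ∘ Equiv.swap 2 3) p) * h1 -
    rM a p * h2

theorem cr_swap12 {a : Fin 4 → Fin 5} (ha : Function.Injective a) {p : ℂ × ℂ} (hp : p ∈ DD) :
    cr (a ∘ Equiv.swap 1 2) p = quo (rM a p) (rN a p) :=
  quo_eq_of_mul_eq (rel12 ha p) (rN_ne_or (inj_swap ha _) hp) (rN_ne_or ha hp).symm

theorem rN_ne_or' {a : Fin 4 → Fin 5} (ha : Function.Injective a) {p : ℂ × ℂ} (hp : p ∈ DD) :
    -rN a p ≠ 0 ∨ rM a p - rN a p ≠ 0 := by
  by_contra h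
  push Not at h
  obtain ⟨h1, h2⟩ := h
  have h3 : rN a p = 0 := by linear_combination -h1
  have h4 : rM a p = 0 := by linear_combination h2 + h3
  rcases rN_ne_or ha (show p ≠ (1, 1) from hp) with h | h
  · exact h h3
  · exact h h4

theorem cr_swap01 {a : Fin 4 → Fin 5} (ha : Function.Injective a) {p : ℂ × ℂ} (hp : p ∈ DD) :
    cr (a ∘ Equiv.swap 0 1) p = quo (-rN a p) (rM a p - rN a p) :=
  quo_eq_of_mul_eq (rel01 ha p) (rN_ne_or (inj_swap ha _) hp) (rN_ne_or' ha hp)

theorem cr_swap23 {a : Fin 4 → Fin 5} (ha : Function.Injective a) {p : ℂ × ℂ} (hp : p ∈ DD) :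
    cr (a ∘ Equiv.swap 2 3) p = quo (-rN a p) (rM a p - rN a p) :=
  quo_eq_of_mul_eq (rel23 ha p) (rN_ne_or (inj_swap ha _) hp) (rN_ne_or' ha hp)

/-- a cross ratio index composed with a permutation of the four places -/
def Idx.comp (a : Idx) (σ : Equiv.Perm (Fin 4)) : Idx := ⟨a.1 ∘ σ, inj_swap a.2 σ⟩

theorem cr_congr {a b : Fin 4 → Fin 5} (ha : Function.Injective a) (hb : Function.Injective b)
    {p q : ℂ × ℂ} (hp : p ∈ DD) (hq : q ∈ DD) (h : cr a p = cr b q) (i : Fin 3) :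
    cr (a ∘ Equiv.swap i.castSucc i.succ) p = cr (b ∘ Equiv.swap i.castSucc i.succ) q := by
  have h0 := (quo_eq_iff (rN_ne_or ha hp) (rN_ne_or hb hq)).1 h
  fin_cases i
  · show cr (a ∘ Equiv.swap 0 1) p = cr (b ∘ Equiv.swap 0 1) q
    rw [cr_swap01 ha hp, cr_swap01 hb hq, quo_eq_iff (rN_ne_or' ha hp) (rN_ne_or' hb hq)]
    linear_combination -h0
  · show cr (a ∘ Equiv.swap 1 2) p = cr (b ∘ Equiv.swap 1 2) q
    rw [cr_swap12 ha hp, cr_swap12 hb hq,
      quo_eq_iff (rN_ne_or ha hp).symm (rN_ne_or hb hq).symm]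
    linear_combination -h0
  · show cr (a ∘ Equiv.swap 2 3) p = cr (b ∘ Equiv.swap 2 3) q
    rw [cr_swap23 ha hp, cr_swap23 hb hq, quo_eq_iff (rN_ne_or' ha hp) (rN_ne_or' hb hq)]
    linear_combination -h0

theorem cr_congr_perm (σ : Equiv.Perm (Fin 4)) {a b : Fin 4 → Fin 5} (ha : Function.Injective a)
    (hb : Function.Injective b) {p q : ℂ × ℂ} (hp : p ∈ DD) (hq : q ∈ DD) (h : cr a p = cr b q) :
    cr (a ∘ σ) p = cr (b ∘ σ) q := by
  have hσ : σ ∈ Submonoid.closure
      (Set.range fun i : Fin 3 => Equiv.swap i.castSucc i.succ) := by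
    rw [Equiv.Perm.mclosure_swap_castSucc_succ]; trivial
  induction hσ using Submonoid.closure_induction_left generalizing a b with
  | one => simpa using h
  | mul_left τ hτ σ _ ih =>
    obtain ⟨i, rfl⟩ := hτ
    have h1 := cr_congr ha hb hp hq h i
    have h2 := ih (inj_swap ha (Equiv.swap i.castSucc i.succ))
      (inj_swap hb (Equiv.swap i.castSucc i.succ)) h1
    simpa [Function.comp_assoc, Equiv.Perm.coe_mul] using h2

/-- every point of the closure is in the image of a chart -/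
theorem exists_psi {y : PP} (hy : y ∈ closure UP) : ∃ ν, ∃ p ∈ DD, psi ν p = y := by
  obtain ⟨ν, p, hp, h⟩ := mem_iUnion.1 (closure_subset hy)
  exact ⟨ν, p, KK_subset hp, h⟩

theorem closure_congr {y y' : PP} (hy : y ∈ closure UP) (hy' : y' ∈ closure UP) {a : Idx}
    (h : y a = y' a) (σ : Equiv.Perm (Fin 4)) : y (a.comp σ) = y' (a.comp σ) := by
  obtain ⟨ν, p, hp, rfl⟩ := exists_psi hy
  obtain ⟨μ, q, hq, rfl⟩ := exists_psi hy'
  exact cr_congr_perm σ (a.act ν).2 (a.act μ).2 hp hq h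

theorem exists_perm_of_omit {a b : Fin 4 → Fin 5} (ha : Function.Injective a)
    (hb : Function.Injective b) {i : Fin 5} (hai : i ∉ range a) (hbi : i ∉ range b) :
    ∃ σ : Equiv.Perm (Fin 4), b = a ∘ σ := by
  have hr : ∀ {c : Fin 4 → Fin 5}, Function.Injective c → i ∉ range c → range c = {i}ᶜ := by
    intro c hc hi
    have h1 : Finset.univ.image c = {i}ᶜ := by
      apply Finset.eq_of_subset_of_card_le
      · intro x hx
        obtain ⟨k, -, rfl⟩ := Finset.mem_image.1 hx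
        simp only [Finset.mem_compl, Finset.mem_singleton]
        rintro rfl
        exact hi (mem_range_self _)
      · rw [Finset.card_image_of_injective _ hc, Finset.card_compl]
        simp
    have h2 := congrArg (fun s : Finset (Fin 5) => (s : Set (Fin 5))) h1
    simpa using h2
  have h1 := hr ha hai
  have h2 := hr hb hbi
  have h3 : ∀ k, ∃ l, a l = b k := by
    intro k
    have : b k ∈ range a := by rw [h1, ← h2]; exact mem_range_self k
    exact this
  choose σ hσ using h3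
  have hinj : Function.Injective σ := by
    intro k l hkl
    apply hb
    rw [← hσ k, ← hσ l, hkl]
  refine ⟨Equiv.ofBijective σ (Finite.injective_iff_bijective.1 hinj), ?_⟩
  funext k
  exact (hσ k).symm

/-- **Separation**: five cross ratios, one for each omitted label, determine the point. -/
theorem ysep {J : Type*} (e : J → Idx) (he : ∀ i : Fin 5, ∃ j, i ∉ range (e j).1) {y y' : PP}
    (hy : y ∈ closure UP) (hy' : y' ∈ closure UP) (h : ∀ j, y (e j) = y' (e j)) : y = y' := by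
  funext b
  obtain ⟨i, hi⟩ : ∃ i, i ∉ range b.1 := by
    by_contra hcon
    push Not at hcon
    have h1 : Function.Surjective b.1 := fun i => hcon i
    have := Fintype.card_le_of_surjective _ h1
    simp at this
  obtain ⟨j, hj⟩ := he i
  obtain ⟨σ, hσ⟩ := exists_perm_of_omit (e j).2 b.2 hj hi
  have hb : b = (e j).comp σ := Subtype.ext hσ
  rw [hb]
  exact closure_congr hy hy' (h j) σ

/-- the places of the five standard cross ratios -/
def tab5 : Fin 5 → Fin 4 → Fin 5 :=
  ![![0, 1, 2, 4], ![0, 2, 3, 4], ![0, 1, 3, 4], ![1, 2, 3, 0], ![3, 2, 1, 4]]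

theorem tab5_inj : ∀ (j : Fin 5) (x y : Fin 4), tab5 j x = tab5 j y → x = y := by decide

theorem tab5_omit : ∀ k : Fin 5, ∃ j : Fin 5, ∀ l : Fin 4, tab5 j l ≠ k := by decide

/-- the five standard cross ratios of the labelling `ν`: `r`, `s`, `rs`, `(1-r)/(1-rs)`,
`(1-s)/(1-rs)` -/
def e5 (ν : Equiv.Perm (Fin 5)) (j : Fin 5) : Idx :=
  ⟨fun i => ν (tab5 j i), fun x y h => tab5_inj j x y (ν.injective h)⟩

theorem e5_omit (ν : Equiv.Perm (Fin 5)) (i : Fin 5) : ∃ j, i ∉ range (e5 ν j).1 := by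
  obtain ⟨j, hj⟩ := tab5_omit (ν.symm i)
  refine ⟨j, ?_⟩
  rintro ⟨l, hl⟩
  exact hj l (by rw [← hl]; simp [e5])

theorem quo_neg (a b : ℂ) : quo (-a) (-b) = quo a b := by
  have := quo_mul (c := -1) (a := a) (b := b) (by norm_num)
  simpa using this

/-- values of the five standard cross ratios in the chart of the same labelling -/
theorem psi_e5 (ν : Equiv.Perm (Fin 5)) (j : Fin 5) (p : ℂ × ℂ) :
    psi ν p (e5 ν j) =
      quo ((![p.1, p.2, p.1 * p.2, 1 - p.1, 1 - p.2] : Fin 5 → ℂ) j)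
        ((![1, 1, 1, 1 - p.1 * p.2, 1 - p.1 * p.2] : Fin 5 → ℂ) j) := by
  have h : (Idx.act ν (e5 ν j)).1 = tab5 j := by
    funext i; simp [Idx.act, e5]
  rw [psi, h, cr]
  fin_cases j
  · simp [rN, rM, sg, exN, exM, ex, fac, Fin.prod_univ_five, tab5]
  · simp [rN, rM, sg, exN, exM, ex, fac, Fin.prod_univ_five, tab5]
  · simp [rN, rM, sg, exN, exM, ex, fac, Fin.prod_univ_five, tab5]
  · simp only [rN, rM, sg, exN, exM, ex, fac, Fin.prod_univ_five, tab5]
    rw [← quo_neg]
    simp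
  · simp only [rN, rM, sg, exN, exM, ex, fac, Fin.prod_univ_five, tab5]
    rw [← quo_neg]
    simp

/-- in the form of the projective coordinates of the section systems -/
theorem psi_eq_iff (e : Fin 5 → Idx) (he : ∀ i : Fin 5, ∃ j, i ∉ range (e j).1)
    {ν μ : Equiv.Perm (Fin 5)} {p q : ℂ × ℂ} (hp : p ∈ DD) (hq : q ∈ DD) {A B A' B' : Fin 5 → ℂ}
    (h : ∀ j, psi ν p (e j) = quo (A j) (B j)) (h' : ∀ j, psi μ q (e j) = quo (A' j) (B' j))
    (hne : ∀ j, A j ≠ 0 ∨ B j ≠ 0) (hne' : ∀ j, A' j ≠ 0 ∨ B' j ≠ 0) :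
    psi ν p = psi μ q ↔ ∀ j, A j * B' j = A' j * B j := by
  constructor
  · intro heq j
    rw [← quo_eq_iff (hne j) (hne' j), ← h j, ← h' j, heq]
  · intro hall
    refine ysep e he (psi_mem_closure ν hp) (psi_mem_closure μ hq) fun j => ?_
    rw [h j, h' j, quo_eq_iff (hne j) (hne' j)]
    exact hall j

/-- extension of a formula for a cross ratio from `U0` to a set on which it makes sense -/
theorem psi_eq_quo {ν : Equiv.Perm (Fin 5)} {a : Idx} {D : Set (ℂ × ℂ)} (hD : IsOpen D)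
    (hDD : D ⊆ DD) {A B : ℂ × ℂ → ℂ} (hA : ContinuousOn A D) (hB : ContinuousOn B D)
    (hne : ∀ p ∈ D, A p ≠ 0 ∨ B p ≠ 0) (h : ∀ p ∈ D, p ∈ U0 → psi ν p a = quo (A p) (B p))
    {p : ℂ × ℂ} (hp : p ∈ D) : psi ν p a = quo (A p) (B p) := by
  have h1 : ContinuousAt (fun p => psi ν p a) p :=
    (continuous_apply a).continuousAt.comp (continuousAt_psi ν (hDD hp))
  have h2 : ContinuousAt (fun p => quo (A p) (B p)) p := by
    have h3 : ContinuousAt (fun p => (A p, B p)) p :=
      (hA.continuousAt (hD.mem_nhds hp)).prodMk (hB.continuousAt (hD.mem_nhds hp))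
    exact ContinuousAt.comp (g := fun q : ℂ × ℂ => quo q.1 q.2) (f := fun p => (A p, B p))
      (continuousAt_quo (hne p hp)) h3
  have hcl : p ∈ closure (D ∩ U0) := by
    rw [mem_closure_iff_nhds]
    intro t ht
    obtain ⟨x, hx1, hx2⟩ := mem_closure_iff_nhds.1 (dense_U0 p) (t ∩ D)
      (inter_mem ht (hD.mem_nhds hp))
    exact ⟨x, hx1.1, hx1.2, hx2⟩
  have hnb : (𝓝[D ∩ U0] p).NeBot := mem_closure_iff_nhdsWithin_neBot.1 hcl
  refine tendsto_nhds_unique (f := fun p => psi ν p a) (l := 𝓝[D ∩ U0] p)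
    (h1.tendsto.mono_left nhdsWithin_le_nhds)
    ((h2.tendsto.mono_left nhdsWithin_le_nhds).congr' ?_)
  filter_upwards [self_mem_nhdsWithin] with x hx
  exact (h x hx.1 hx.2).symm

end Vale.Agent.P300.M05
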